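import Mathlib
import Vale.Agent.Lib.P243.CapMain
import Vale.Agent.Lib.P243.R3.Defs
open MeasureTheory Set Vale.Agent.Lib.P243

/-!
# P243 pool job J1 (helper6): the orthonormal coordinate map triE is volume preserving
-/

namespace Vale.Agent.Lib.P243.R3

/-- The coordinate map of an orthonormal basis of Euclidean 3-space onto the model space
is measure preserving. -/
theorem M1i_triE_measurePreserving (c : OrthonormalBasis (Fin 3) ℝ E3) :
    MeasurePreserving (Cap.triE c) volume volume := by
  have h1 : MeasurePreserving c.repr volume volume := c.measurePreserving_repr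
  have h2 : MeasurePreserving (WithLp.ofLp : EuclideanSpace ℝ (Fin 3) → (Fin 3 → ℝ))
      volume volume := PiLp.volume_preserving_ofLp (Fin 3)
  have h3 := volume_preserving_piFinSuccAbove (fun _ : Fin 3 => ℝ) 2
  have h4 : MeasurePreserving (Prod.map id (MeasurableEquiv.finTwoArrow (α := ℝ)))
      (volume : Measure (ℝ × (Fin 2 → ℝ))) (volume : Measure (ℝ × (ℝ × ℝ))) :=
    (MeasurePreserving.id volume).prod (volume_preserving_finTwoArrow ℝ)
  have h := h4.comp (h3.comp (h2.comp h1))
  have heq : (Cap.triE c : E3 → ℝ × (ℝ × ℝ))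
      = (Prod.map id (MeasurableEquiv.finTwoArrow (α := ℝ)))
        ∘ (MeasurableEquiv.piFinSuccAbove (fun _ : Fin 3 => ℝ) 2)
        ∘ (WithLp.ofLp : EuclideanSpace ℝ (Fin 3) → (Fin 3 → ℝ)) ∘ c.repr := by
    funext x
    rw [Cap.triE_apply]
    have e0 : (2 : Fin 3).succAbove (0 : Fin 2) = 0 := by decide
    have e1 : (2 : Fin 3).succAbove (1 : Fin 2) = 1 := by decide
    have r : ∀ i : Fin 3, (c.repr x).ofLp i = inner ℝ x (c i) := by
      intro i
      rw [← real_inner_comm]
      exact OrthonormalBasis.repr_apply_apply c x i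
    refine Prod.ext ?_ (Prod.ext ?_ ?_)
    · simp [MeasurableEquiv.piFinSuccAbove, MeasurableEquiv.finTwoArrow,
        Fin.insertNthEquiv, r]
    · simp [planeCoords, MeasurableEquiv.piFinSuccAbove, MeasurableEquiv.finTwoArrow,
        Fin.insertNthEquiv, Fin.removeNth, e0, r]
    · simp [planeCoords, MeasurableEquiv.piFinSuccAbove, MeasurableEquiv.finTwoArrow,
        Fin.insertNthEquiv, Fin.removeNth, e1, r]
  rw [heq]
  exact h

theorem M1i_triE_volume (c : OrthonormalBasis (Fin 3) ℝ E3) (X : Set E3) :
    volume (Cap.triE c '' X) = volume X := by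
  have hmp : MeasurePreserving (Cap.triE c).toHomeomorph.toMeasurableEquiv volume volume :=
    M1i_triE_measurePreserving c
  have himg : Cap.triE c '' X
      = (Cap.triE c).toHomeomorph.toMeasurableEquiv.symm ⁻¹' X :=
    (Cap.triE c).toHomeomorph.toMeasurableEquiv.image_eq_preimage_symm X
  rw [himg]
  exact hmp.symm.measure_preimage_equiv X

end Vale.Agent.Lib.P243.R3
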